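import Mathlib.Analysis.InnerProductSpace.PiL2

/-! P208 (helper124): the definitions used in the statement. -/

namespace Vale.Agent.P208.H124

/-- `X` is doubling with constant at most `N`: for every `x ∈ X` and `r > 0` the closed ball of `X`
with centre `x` and radius `r` is covered by at most `N` open balls of radius `r / 2` with centres
in `X`. -/
def IsDoubling {Y : Type} [PseudoMetricSpace Y] (N : ℕ) (X : Set Y) : Prop :=
  ∀ x ∈ X, ∀ r : ℝ, 0 < r → ∃ T : Finset Y, T.card ≤ N ∧ (T : Set Y) ⊆ X ∧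
    X ∩ Metric.closedBall x r ⊆ ⋃ z ∈ T, Metric.ball z (r / 2)

/-- `S` has a bi-Lipschitz embedding into `ℝ^k` with distortion at most `D`. -/
def BiLip {Y : Type} [PseudoMetricSpace Y] (S : Set Y) (k : ℕ) (D : ℝ) : Prop :=
  ∃ (f : S → EuclideanSpace ℝ (Fin k)) (a : ℝ), 0 < a ∧
    ∀ x y : S, a * dist x y ≤ dist (f x) (f y) ∧ dist (f x) (f y) ≤ D * a * dist x y

/-- No nonempty relatively open subset of `X` has a bi-Lipschitz embedding into any `ℝ^k`. -/
def NowhereBiLip {Y : Type} [PseudoMetricSpace Y] (X : Set Y) : Prop :=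
  ∀ U : Set Y, IsOpen U → (X ∩ U).Nonempty → ∀ (k : ℕ) (D : ℝ), ¬ BiLip (X ∩ U) k D

end Vale.Agent.P208.H124
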