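import Vale.Agent.P208.H124.Sum

/-!
# P208 (helper124): doubling sets which are nowhere locally embeddable
-/

open Finset Set Filter Topology

namespace Vale.Agent.P208.H124

variable {Y : Type} [NormedAddCommGroup Y] [NormedSpace ℝ Y]

theorem embeds_mono {A B : Set Y} {k : ℕ} {D : ℝ} (h : Embeds B k D) (hAB : A ⊆ B) :
    Embeds A k D := by
  obtain ⟨f, a, ha, hf⟩ := h
  exact ⟨f, a, ha, fun x hx y hy => hf x (hAB hx) y (hAB hy)⟩

theorem embeds_mono_D {A : Set Y} {k : ℕ} {D D' : ℝ} (h : Embeds A k D) (hD : D ≤ D') :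
    Embeds A k D' := by
  obtain ⟨f, a, ha, hf⟩ := h
  refine ⟨f, a, ha, fun x hx y hy => ⟨(hf x hx y hy).1, (hf x hx y hy).2.trans ?_⟩⟩
  have := dist_nonneg (x := x) (y := y)
  have := ha.le
  gcongr

theorem nonempty_of_not_embeds {A : Set Y} {k : ℕ} {D : ℝ} (h : ¬ Embeds A k D) :
    A.Nonempty := by
  by_contra hA
  rw [Set.not_nonempty_iff_eq_empty] at hA
  subst hA
  exact h ⟨fun _ => 0, 1, one_pos, fun x hx => absurd hx (Set.notMem_empty x)⟩

/-- Translates of a doubling set. -/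
theorem doubling_translate {lam : ℕ} {A : Set Y} (h : Doubling lam A) (v : Y) :
    Doubling lam ((fun y => y - v) '' A) := by
  classical
  rintro _ ⟨x, hx, rfl⟩ r hr
  obtain ⟨T, h1, h2, h3⟩ := h x hx r hr
  refine ⟨T.image fun y => y - v, card_image_le.trans h1, ?_, ?_⟩
  · intro w hw
    obtain ⟨c, hc, rfl⟩ := Finset.mem_image.1 (mem_coe.1 hw)
    exact ⟨c, h2 hc, rfl⟩
  · rintro _ ⟨y, hy, rfl⟩ hyx
    obtain ⟨z, hz, hyz⟩ := h3 y hy (by simpa [dist_eq_norm] using hyx)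
    exact ⟨z - v, Finset.mem_image_of_mem _ hz, by simpa [dist_eq_norm] using hyz⟩

theorem embeds_of_translate {A : Set Y} {v : Y} {k : ℕ} {D : ℝ}
    (h : Embeds ((fun y => y - v) '' A) k D) : Embeds A k D := by
  obtain ⟨f, a, ha, hf⟩ := h
  refine ⟨fun y => f (y - v), a, ha, fun x hx y hy => ?_⟩
  have := hf (x - v) ⟨x, hx, rfl⟩ (y - v) ⟨y, hy, rfl⟩
  simpa [dist_eq_norm] using this

/-- radius and gap of a finite set -/
theorem exists_radius_gap {A : Set Y} (hA : A.Finite) : ∃ R s : ℝ, 0 < R ∧ 0 < s ∧ s ≤ R ∧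
    (∀ a ∈ A, ‖a‖ ≤ R) ∧ ∀ a ∈ A, ∀ b ∈ A, a ≠ b → s ≤ ‖a - b‖ := by
  classical
  obtain ⟨C, hC⟩ := hA.isCompact.isBounded.exists_norm_le
  set R : ℝ := |C| + 1 with hR
  have hR0 : 0 < R := by positivity
  set S : Finset ℝ := insert R
    ((((hA.toFinset ×ˢ hA.toFinset).filter fun p => p.1 ≠ p.2)).image fun p => ‖p.1 - p.2‖)
    with hS
  have hne : S.Nonempty := ⟨R, Finset.mem_insert_self _ _⟩
  refine ⟨R, S.min' hne, hR0, ?_, S.min'_le _ (Finset.mem_insert_self _ _), fun a ha => ?_,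
    fun a ha b hb hab => S.min'_le _ ?_⟩
  · rw [Finset.lt_min'_iff]
    intro y hy
    rcases Finset.mem_insert.1 hy with rfl | hy
    · exact hR0
    · obtain ⟨p, hp, rfl⟩ := Finset.mem_image.1 hy
      exact norm_pos_iff.2 (sub_ne_zero.2 (Finset.mem_filter.1 hp).2)
  · exact (hC a ha).trans ((le_abs_self C).trans (by linarith))
  · refine Finset.mem_insert_of_mem (Finset.mem_image.2 ⟨(a, b), ?_, rfl⟩)
    simp [ha, hb, hab]

/-- Digits which are bad for the `j`-th dimension and distortion. -/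
theorem exists_dig {lam : ℕ}
    (h : ∀ (k : ℕ) (D : ℝ), ∃ X : Set Y, X.Finite ∧ Doubling lam X ∧ ¬ Embeds X k D)
    (kk : ℕ → ℕ) (DD : ℕ → ℝ) : ∃ G : Dig Y lam, ∀ j, ¬ Embeds (G.A j) (kk j) (DD j) := by
  have h1 : ∀ j, ∃ (A : Set Y) (R s : ℝ), (0 : Y) ∈ A ∧ Doubling lam A ∧ A.Finite ∧
      ¬ Embeds A (kk j) (DD j) ∧ 0 < R ∧ 0 < s ∧ s ≤ R ∧
      (∀ a ∈ A, ‖a‖ ≤ R) ∧ ∀ a ∈ A, ∀ b ∈ A, a ≠ b → s ≤ ‖a - b‖ := by
    intro j
    obtain ⟨B, hB, hd, hne⟩ := h (kk j) (DD j)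
    obtain ⟨v, hv⟩ := nonempty_of_not_embeds hne
    have hf : ((fun y => y - v) '' B).Finite := hB.image _
    obtain ⟨R, s, h2⟩ := exists_radius_gap hf
    exact ⟨(fun y => y - v) '' B, R, s, ⟨v, hv, sub_self v⟩, doubling_translate hd v, hf,
      fun he => hne (embeds_of_translate he), h2⟩
  choose A R s h2 using h1
  exact ⟨⟨A, fun j => (h2 j).1, fun j => (h2 j).2.1, fun j => (h2 j).2.2.1, R, s,
    fun j => (h2 j).2.2.2.2.1, fun j => (h2 j).2.2.2.2.2.1, fun j => (h2 j).2.2.2.2.2.2.1,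
    fun j => (h2 j).2.2.2.2.2.2.2.1, fun j => (h2 j).2.2.2.2.2.2.2.2⟩,
    fun j => (h2 j).2.2.2.1⟩

namespace Dig

variable {lam : ℕ} (G : Dig Y lam)

/-- sums of the first `n` digits -/
def P (n : ℕ) : Set Y :=
  {x | ∃ a : ℕ → Y, (∀ i, a i ∈ G.A i) ∧ x = ∑ i ∈ range n, G.e i • a i}

theorem finite_P (n : ℕ) : (G.P n).Finite := by
  induction n with
  | zero =>
    refine (Set.finite_singleton (0 : Y)).subset ?_
    rintro x ⟨a, -, rfl⟩
    simp
  | succ n ih =>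
    refine ((ih.prod (G.fin n)).image fun p : Y × Y => p.1 + G.e n • p.2).subset ?_
    rintro x ⟨a, ha, rfl⟩
    exact ⟨(∑ i ∈ range n, G.e i • a i, a n), ⟨⟨a, ha, rfl⟩, ha n⟩, by rw [sum_range_succ]⟩

theorem X_subset : G.X ⊆ ⋃ n, G.P n := by
  rintro x ⟨a, n, h⟩
  exact Set.mem_iUnion.2 ⟨n, a, h.mem, h.eq⟩

theorem countable_X : G.X.Countable :=
  (Set.countable_iUnion fun n => (G.finite_P n).countable).mono G.X_subset

theorem zero_mem_X : (0 : Y) ∈ G.X := ⟨fun _ => 0, 0, fun i => G.zero i, fun _ _ => rfl, by simp⟩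

theorem totallyBounded_X : TotallyBounded G.X := by
  rw [Metric.totallyBounded_iff]
  intro r hr
  have h1 : ∀ᶠ j in atTop, G.rho j < r / 4 := G.tendsto_rho.eventually_lt_const (by positivity)
  obtain ⟨n, hn⟩ := h1.exists
  refine ⟨G.P n, G.finite_P n, ?_⟩
  rintro x ⟨a, m, h⟩
  obtain ⟨t, ht, hxt⟩ := h.split n
  refine Set.mem_iUnion₂.2 ⟨∑ i ∈ range n, G.e i • a i, ⟨a, h.mem, rfl⟩, ?_⟩
  rw [Metric.mem_ball, dist_eq_norm, hxt, add_sub_cancel_left]
  linarith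

/-- every relatively open set contains scaled copies of the digit sets -/
theorem copy {x : Y} (hx : x ∈ G.X) {U : Set Y} (hU : U ∈ 𝓝 x) : ∃ n, ∀ j, n ≤ j →
    ∀ c ∈ G.A j, x + G.e j • c ∈ G.X ∩ U := by
  obtain ⟨a, n, h⟩ := hx
  obtain ⟨δ, hδ, hball⟩ := Metric.mem_nhds_iff.1 hU
  obtain ⟨m, hm⟩ := eventually_atTop.1 (G.tendsto_rho.eventually_lt_const hδ)
  refine ⟨max n m, fun j hj c hc => ⟨?_, hball ?_⟩⟩
  · have hnj : n ≤ j := (le_max_left _ _).trans hj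
    refine ⟨fun i => if i = j then c else a i, j + 1, fun i => ?_, fun i hi => ?_, ?_⟩
    · by_cases hi : i = j
      · subst hi; simpa using hc
      · simpa [hi] using h.mem i
    · have h1 : i ≠ j := by omega
      simp only [h1, if_false]
      exact h.fin i (by omega)
    · rw [sum_range_succ, (h.mono hnj).eq]
      simp only [if_true]
      congr 1
      exact sum_congr rfl fun i hi => by
        rw [if_neg (ne_of_lt (Finset.mem_range.1 hi))]
  · rw [Metric.mem_ball, dist_eq_norm, add_sub_cancel_left, norm_smul,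
      Real.norm_of_nonneg (G.e_pos j).le]
    calc G.e j * ‖c‖ ≤ G.rho j := mul_le_mul_of_nonneg_left (G.norm_le j c hc) (G.e_pos j).le
      _ < δ := hm j ((le_max_right _ _).trans hj)

theorem embeds_of_copy {S : Set Y} {x : Y} {j : ℕ} (h : ∀ c ∈ G.A j, x + G.e j • c ∈ S) {k : ℕ}
    {D : ℝ} (he : Embeds S k D) : Embeds (G.A j) k D := by
  obtain ⟨f, a, ha, hf⟩ := he
  have hj := G.e_pos j
  refine ⟨fun c => f (x + G.e j • c), a * G.e j, by positivity, fun c hc c' hc' => ?_⟩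
  have h1 := hf _ (h c hc) _ (h c' hc')
  have h2 : dist (x + G.e j • c) (x + G.e j • c') = G.e j * dist c c' := by
    rw [dist_add_left, dist_smul₀, Real.norm_of_nonneg hj.le]
  rw [h2] at h1
  constructor
  · calc _ = a * (G.e j * dist c c') := by ring
      _ ≤ _ := h1.1
  · calc _ ≤ D * a * (G.e j * dist c c') := h1.2
      _ = _ := by ring

end Dig

/-- closures of doubling sets -/
theorem doubling_closure {lam : ℕ} {A : Set Y} (h : Doubling lam A) :
    Doubling (lam ^ 2) (closure A) := by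
  intro x hx r hr
  obtain ⟨x', hx', hxx'⟩ := Metric.mem_closure_iff.1 hx (r / 8) (by positivity)
  obtain ⟨T, h1, h2, h3⟩ := doubling_iter h 1 x' hx' (r + r / 4) (by positivity)
  refine ⟨T, h1, h2.trans subset_closure, fun y hy hyx => ?_⟩
  obtain ⟨y', hy', hyy'⟩ := Metric.mem_closure_iff.1 hy (r / 8) (by positivity)
  have h4 : dist y' x' ≤ r + r / 4 := by
    calc dist y' x' ≤ dist y' y + dist y x + dist x x' := dist_triangle4 _ _ _ _
      _ ≤ r + r / 4 := by rw [dist_comm y' y]; linarith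
  obtain ⟨z, hz, hyz⟩ := h3 y' hy' h4
  refine ⟨z, hz, ?_⟩
  calc dist y z ≤ dist y y' + dist y' z := dist_triangle _ _ _
    _ < r / 8 + (r + r / 4) / 2 ^ (1 + 1) := add_lt_add hyy' hyz
    _ ≤ r / 2 := by norm_num; linarith

/-- **Doubling sets nowhere locally embeddable.** -/
theorem exists_nowhere {lam : ℕ}
    (h : ∀ (k : ℕ) (D : ℝ), ∃ X : Set Y, X.Finite ∧ Doubling lam X ∧ ¬ Embeds X k D) :
    ∃ X : Set Y, X.Nonempty ∧ X.Countable ∧ TotallyBounded X ∧ Doubling (lam ^ 3) X ∧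
      ∀ U : Set Y, IsOpen U → (X ∩ U).Nonempty → ∀ (k : ℕ) (D : ℝ), ¬ Embeds (X ∩ U) k D := by
  obtain ⟨G, hG⟩ := exists_dig h (fun j => (Nat.unpair (Nat.unpair j).1).1)
    (fun j => ((Nat.unpair (Nat.unpair j).1).2 : ℝ))
  refine ⟨G.X, ⟨0, G.zero_mem_X⟩, G.countable_X, G.totallyBounded_X, G.doubling_X, ?_⟩
  rintro U hU ⟨x, hx, hxU⟩ k D he
  obtain ⟨n, hn⟩ := G.copy hx (hU.mem_nhds hxU)
  obtain ⟨D', hD'⟩ := exists_nat_ge D
  have h1 : n ≤ Nat.pair (Nat.pair k D') n := Nat.right_le_pair _ _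
  have h2 := G.embeds_of_copy (hn _ h1) he
  refine hG (Nat.pair (Nat.pair k D') n) ?_
  simp only [Nat.unpair_pair]
  exact embeds_mono_D h2 hD'

/-- the closure -/
theorem nowhere_closure {X : Set Y}
    (h : ∀ U : Set Y, IsOpen U → (X ∩ U).Nonempty → ∀ (k : ℕ) (D : ℝ), ¬ Embeds (X ∩ U) k D)
    {U : Set Y} (hU : IsOpen U) (hne : (closure X ∩ U).Nonempty) (k : ℕ) (D : ℝ) :
    ¬ Embeds (closure X ∩ U) k D := by
  obtain ⟨x, hx, hxU⟩ := hne
  have h1 : (X ∩ U).Nonempty := by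
    obtain ⟨y, hy, hyX⟩ := mem_closure_iff.1 hx U hU hxU
    exact ⟨y, hyX, hy⟩
  exact fun he => h U hU h1 k D (embeds_mono he (inter_subset_inter_left _ subset_closure))

end Vale.Agent.P208.H124
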