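import Vale.Agent.P208.H124.Defs
import Vale.Agent.P208.H124.Local

/-!
# P208 (helper124): final forms
-/

open Set Filter Topology

namespace Vale.Agent.P208.H124

theorem isDoubling_of {Y : Type} [MetricSpace Y] {N : ℕ} {X : Set Y} (h : Doubling N X) :
    IsDoubling N X := by
  intro x hx r hr
  obtain ⟨T, h1, h2, h3⟩ := h x hx r hr
  refine ⟨T, h1, h2, ?_⟩
  rintro y ⟨hy, hyx⟩
  obtain ⟨z, hz, hyz⟩ := h3 y hy (Metric.mem_closedBall.1 hyx)
  exact Set.mem_iUnion₂.2 ⟨z, hz, Metric.mem_ball.2 hyz⟩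

theorem IsDoubling.mono {Y : Type} [PseudoMetricSpace Y] {N N' : ℕ} {X : Set Y}
    (h : IsDoubling N X) (hN : N ≤ N') : IsDoubling N' X := by
  intro x hx r hr
  obtain ⟨T, h1, h2, h3⟩ := h x hx r hr
  exact ⟨T, h1.trans hN, h2, h3⟩

/-- from maps on `S` to maps on the whole space -/
theorem embeds_of_biLip {Y : Type} [MetricSpace Y] {S : Set Y} {k : ℕ} {D : ℝ}
    (h : BiLip S k D) : Embeds S k D := by
  classical
  obtain ⟨f, a, ha, h⟩ := h
  refine ⟨fun y => if h : y ∈ S then f ⟨y, h⟩ else 0, a, ha, fun x hx y hy => ?_⟩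
  simp only [dif_pos hx, dif_pos hy]
  exact h ⟨x, hx⟩ ⟨y, hy⟩

theorem biLip_of_embeds {Y : Type} [MetricSpace Y] {S : Set Y} {k : ℕ} {D : ℝ}
    (h : Embeds S k D) : BiLip S k D := by
  obtain ⟨f, a, ha, h⟩ := h
  exact ⟨fun x => f x, a, ha, fun x y => h x x.2 y y.2⟩

/-- the absolute constant -/
def const : ℕ := D257.lamA ^ 6

theorem lamA_le : D257.lamA ≤ const := by
  have h : 1 ≤ D257.lamA := by
    have h1 : ¬ FiniteDimensional ℝ (lp (fun _ : ℕ => ℝ) 2) := D257.not_finiteDimensional_l2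
    obtain ⟨X, -, hd, hne⟩ := (D257.main_inf h1).2 0 0
    obtain ⟨x, hx⟩ := nonempty_of_not_embeds hne
    obtain ⟨T, h2, h3, h4⟩ := hd x hx 1 one_pos
    obtain ⟨z, hz, -⟩ := h4 x hx (by simp)
    exact (Finset.card_pos.2 ⟨z, hz⟩).trans_le h2
  exact Nat.le_self_pow (by norm_num) _

variable {Y : Type} [NormedAddCommGroup Y] [NormedSpace ℝ Y]

/-- **Closed totally bounded doubling sets, nowhere locally embeddable.** -/
theorem exists_local (hY : ¬ FiniteDimensional ℝ Y) :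
    ∃ X : Set Y, X.Nonempty ∧ IsClosed X ∧ TotallyBounded X ∧ IsDoubling const X ∧
      NowhereBiLip X := by
  obtain ⟨X, h1, -, h3, h4, h5⟩ := exists_nowhere (D257.main_inf hY).2
  refine ⟨closure X, h1.closure, isClosed_closure, h3.closure, ?_, fun U hU hne k D he =>
    nowhere_closure h5 hU hne k D (embeds_of_biLip he)⟩
  have := isDoubling_of (doubling_closure h4)
  rwa [← pow_mul] at this

theorem exists_finite_bad (hY : ¬ FiniteDimensional ℝ Y) (k : ℕ) (D : ℝ) :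
    ∃ X : Set Y, X.Finite ∧ IsDoubling const X ∧ ¬ BiLip X k D := by
  obtain ⟨X, h1, h2, h3⟩ := (D257.main_inf hY).2 k D
  exact ⟨X, h1, (isDoubling_of h2).mono lamA_le, fun h => h3 (embeds_of_biLip h)⟩

theorem NowhereBiLip.not_biLip {X : Set Y} (h : NowhereBiLip X) (hX : X.Nonempty) (k : ℕ)
    (D : ℝ) : ¬ BiLip X k D := by
  have := h Set.univ isOpen_univ (by rwa [Set.inter_univ]) k D
  rwa [Set.inter_univ] at this

end Vale.Agent.P208.H124
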