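import Vale.Agent.P208.H257.Main

/-!
# P208 (helper124): fast Minkowski sums of finite doubling sets
-/

open Finset Set Filter Topology

namespace Vale.Agent.P208.H124

variable {Y : Type} [NormedAddCommGroup Y] [NormedSpace ℝ Y]

/-- Iterated doubling. -/
theorem doubling_iter {lam : ℕ} {A : Set Y} (h : Doubling lam A) (n : ℕ) :
    ∀ x ∈ A, ∀ r : ℝ, 0 < r → ∃ T : Finset Y, T.card ≤ lam ^ (n + 1) ∧ (T : Set Y) ⊆ A ∧
      ∀ y ∈ A, dist y x ≤ r → ∃ z ∈ T, dist y z < r / 2 ^ (n + 1) := by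
  classical
  induction n with
  | zero =>
    intro x hx r hr
    obtain ⟨T, h1, h2, h3⟩ := h x hx r hr
    exact ⟨T, by simpa using h1, h2, by simpa using h3⟩
  | succ n ih =>
    intro x hx r hr
    obtain ⟨T, h1, h2, h3⟩ := ih x hx r hr
    have hr' : 0 < r / 2 ^ (n + 1) := by positivity
    have h4 : ∀ z : Y, ∃ S : Finset Y, (z ∈ T → S.card ≤ lam ∧ (S : Set Y) ⊆ A ∧
        ∀ y ∈ A, dist y z ≤ r / 2 ^ (n + 1) → ∃ w ∈ S, dist y w < r / 2 ^ (n + 1) / 2) := by
      intro z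
      by_cases hz : z ∈ T
      · obtain ⟨S, hS⟩ := h z (h2 hz) _ hr'
        exact ⟨S, fun _ => hS⟩
      · exact ⟨∅, fun h => absurd h hz⟩
    choose S hS using h4
    refine ⟨T.biUnion S, ?_, ?_, ?_⟩
    · calc (T.biUnion S).card ≤ ∑ z ∈ T, (S z).card := card_biUnion_le
        _ ≤ ∑ _z ∈ T, lam := Finset.sum_le_sum fun z hz => (hS z hz).1
        _ = T.card * lam := by rw [sum_const, smul_eq_mul]
        _ ≤ lam ^ (n + 1) * lam := Nat.mul_le_mul_right _ h1
        _ = lam ^ (n + 1 + 1) := (pow_succ _ _).symm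
    · intro w hw
      obtain ⟨z, hz, hw⟩ := mem_biUnion.1 (mem_coe.1 hw)
      exact (hS z hz).2.1 hw
    · intro y hy hyx
      obtain ⟨z, hz, hyz⟩ := h3 y hy hyx
      obtain ⟨w, hw, hyw⟩ := (hS z hz).2.2 y hy hyz.le
      refine ⟨w, mem_biUnion.2 ⟨z, hz, hw⟩, ?_⟩
      rwa [div_div, ← pow_succ] at hyw

/-- Digits. -/
structure Dig (Y : Type) [NormedAddCommGroup Y] [NormedSpace ℝ Y] (lam : ℕ) where
  A : ℕ → Set Y
  zero : ∀ j, (0 : Y) ∈ A j
  dbl : ∀ j, Doubling lam (A j)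
  fin : ∀ j, (A j).Finite
  R : ℕ → ℝ
  s : ℕ → ℝ
  R_pos : ∀ j, 0 < R j
  s_pos : ∀ j, 0 < s j
  s_le : ∀ j, s j ≤ R j
  norm_le : ∀ j, ∀ a ∈ A j, ‖a‖ ≤ R j
  le_dist : ∀ j, ∀ a ∈ A j, ∀ b ∈ A j, a ≠ b → s j ≤ ‖a - b‖

namespace Dig

variable {lam : ℕ} (G : Dig Y lam)

/-- the scales -/
noncomputable def e : ℕ → ℝ
  | 0 => 1
  | j + 1 => e j * G.s j / (200 * G.R (j + 1))

theorem e_pos (j : ℕ) : 0 < G.e j := by
  induction j with
  | zero => exact one_pos
  | succ j ih =>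
    have h1 := G.s_pos j
    have h2 := G.R_pos (j + 1)
    rw [e]
    positivity

/-- the size of the `j`-th digit -/
noncomputable def rho (j : ℕ) : ℝ := G.e j * G.R j

theorem rho_pos (j : ℕ) : 0 < G.rho j := mul_pos (G.e_pos j) (G.R_pos j)

theorem rho_succ (j : ℕ) : 200 * G.rho (j + 1) = G.e j * G.s j := by
  have h2 := G.R_pos (j + 1)
  rw [rho, e]
  field_simp

theorem rho_succ_le (j : ℕ) : 200 * G.rho (j + 1) ≤ G.rho j := by
  rw [rho_succ, rho]
  exact mul_le_mul_of_nonneg_left (G.s_le j) (G.e_pos j).le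

theorem rho_anti : Antitone G.rho := by
  refine antitone_nat_of_succ_le fun j => ?_
  have h1 := G.rho_succ_le j
  have h2 := G.rho_pos (j + 1)
  linarith

theorem rho_le_pow (j : ℕ) : G.rho j ≤ G.rho 0 * (1 / 2) ^ j := by
  induction j with
  | zero => simp
  | succ j ih =>
    have h1 := G.rho_succ_le j
    have h2 := G.rho_pos (j + 1)
    rw [pow_succ]
    nlinarith

theorem tendsto_rho : Tendsto G.rho atTop (𝓝 0) := by
  have h : Tendsto (fun j : ℕ => G.rho 0 * (1 / 2 : ℝ) ^ j) atTop (𝓝 (G.rho 0 * 0)) :=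
    (tendsto_pow_atTop_nhds_zero_of_lt_one (by norm_num) (by norm_num)).const_mul _
  rw [mul_zero] at h
  exact squeeze_zero (fun j => (G.rho_pos j).le) G.rho_le_pow h

/-- `x` is the finite sum with digits `a`, of length at most `n`. -/
structure Rep (a : ℕ → Y) (n : ℕ) (x : Y) : Prop where
  mem : ∀ i, a i ∈ G.A i
  fin : ∀ i, n ≤ i → a i = 0
  eq : x = ∑ i ∈ range n, G.e i • a i

/-- the set of all finite sums -/
def X : Set Y := {x | ∃ a n, G.Rep a n x}

variable {G}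

theorem Rep.mono {a : ℕ → Y} {n m : ℕ} {x : Y} (h : G.Rep a n x) (hnm : n ≤ m) :
    G.Rep a m x := by
  refine ⟨h.mem, fun i hi => h.fin i (hnm.trans hi), ?_⟩
  rw [h.eq]
  refine sum_subset (range_subset_range.2 hnm) fun i _ hi => ?_
  rw [h.fin i (by simpa using hi), smul_zero]

theorem tail_le {a : ℕ → Y} (ha : ∀ i, a i ∈ G.A i) (d j : ℕ) :
    ‖∑ i ∈ range d, G.e (j + i) • a (j + i)‖ ≤ 2 * G.rho j := by
  induction d generalizing j with
  | zero => simpa using (G.rho_pos j).le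
  | succ d ih =>
    rw [sum_range_succ']
    have h1 : ∑ i ∈ range d, G.e (j + (i + 1)) • a (j + (i + 1)) =
        ∑ i ∈ range d, G.e (j + 1 + i) • a (j + 1 + i) := by
      refine sum_congr rfl fun i _ => ?_
      rw [show j + (i + 1) = j + 1 + i by ring]
    rw [h1, add_zero]
    have h2 : ‖G.e j • a j‖ ≤ G.rho j := by
      rw [norm_smul, Real.norm_of_nonneg (G.e_pos j).le]
      exact mul_le_mul_of_nonneg_left (G.norm_le j _ (ha j)) (G.e_pos j).le
    have h3 := G.rho_succ_le j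
    have h4 := G.rho_pos (j + 1)
    calc _ ≤ ‖∑ i ∈ range d, G.e (j + 1 + i) • a (j + 1 + i)‖ + ‖G.e j • a j‖ := norm_add_le _ _
      _ ≤ 2 * G.rho (j + 1) + G.rho j := add_le_add (ih (j + 1)) h2
      _ ≤ 2 * G.rho j := by linarith

/-- splitting off the tail -/
theorem Rep.split {a : ℕ → Y} {n : ℕ} {x : Y} (h : G.Rep a n x) (j : ℕ) :
    ∃ t : Y, ‖t‖ ≤ 2 * G.rho j ∧ x = ∑ i ∈ range j, G.e i • a i + t := by
  rcases le_total n j with hn | hn
  · exact ⟨0, by simpa using (G.rho_pos j).le, by rw [add_zero]; exact (h.mono hn).eq⟩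
  · obtain ⟨d, rfl⟩ := Nat.exists_eq_add_of_le hn
    refine ⟨∑ i ∈ range d, G.e (j + i) • a (j + i), tail_le h.mem d j, ?_⟩
    rw [h.eq, sum_range_add]

theorem mem_X {a : ℕ → Y} {n : ℕ} {x : Y} (h : G.Rep a n x) : x ∈ G.X := ⟨a, n, h⟩

/-- the digit bound -/
theorem digit_le {a b : ℕ → Y} {n m : ℕ} {x y : Y} (hx : G.Rep a n x) (hy : G.Rep b m y) {j : ℕ}
    (hj : ∀ i < j, a i = b i) : G.e j * ‖b j - a j‖ ≤ ‖y - x‖ + 4 * G.rho (j + 1) := by
  obtain ⟨t, ht, hxt⟩ := hx.split (j + 1)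
  obtain ⟨u, hu, hyu⟩ := hy.split (j + 1)
  rw [sum_range_succ] at hxt hyu
  have h1 : ∑ i ∈ range j, G.e i • a i = ∑ i ∈ range j, G.e i • b i :=
    sum_congr rfl fun i hi => by rw [hj i (Finset.mem_range.1 hi)]
  have h2 : G.e j • (b j - a j) = (y - x) + (t - u) := by
    rw [hxt, hyu, h1, smul_sub]
    abel
  have h3 : G.e j * ‖b j - a j‖ = ‖(y - x) + (t - u)‖ := by
    rw [← h2, norm_smul, Real.norm_of_nonneg (G.e_pos j).le]
  rw [h3]
  calc _ ≤ ‖y - x‖ + ‖t - u‖ := norm_add_le _ _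
    _ ≤ ‖y - x‖ + (‖t‖ + ‖u‖) := by gcongr; exact norm_sub_le _ _
    _ ≤ _ := by linarith

/-- close points have the same first digits -/
theorem digits_eq {a b : ℕ → Y} {n m : ℕ} {x y : Y} (hx : G.Rep a n x) (hy : G.Rep b m y) {j : ℕ}
    (h : ‖y - x‖ < 16 * G.rho j) : ∀ i < j, a i = b i := by
  intro i
  induction i using Nat.strong_induction_on with
  | _ i ih =>
    intro hij
    by_contra hne
    have h1 := digit_le hx hy (j := i) fun l hl => ih l hl (hl.trans hij)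
    have h2 : G.s i ≤ ‖b i - a i‖ := G.le_dist i _ (hy.mem i) _ (hx.mem i) (Ne.symm hne)
    have h3 : G.e i * G.s i ≤ G.e i * ‖b i - a i‖ := mul_le_mul_of_nonneg_left h2 (G.e_pos i).le
    rw [← G.rho_succ i] at h3
    have h4 : G.rho j ≤ G.rho (i + 1) := G.rho_anti hij
    have h5 := G.rho_pos (i + 1)
    linarith

/-- **The set of finite sums is doubling.** -/
theorem doubling_X : Doubling (lam ^ 3) G.X := by
  classical
  rintro x ⟨a, n, hx⟩ r hr
  have hex : ∃ j, 16 * G.rho j ≤ r := by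
    have h1 : ∀ᶠ j in atTop, G.rho j < r / 16 := G.tendsto_rho.eventually_lt_const (by positivity)
    obtain ⟨j, hj⟩ := h1.exists
    exact ⟨j, by linarith⟩
  have hlam : 1 ≤ lam ^ 3 := by
    obtain ⟨T, h1, h2, h3⟩ := G.dbl 0 0 (G.zero 0) 1 one_pos
    obtain ⟨z, hz, -⟩ := h3 0 (G.zero 0) (by simp)
    have : 1 ≤ lam := (card_pos.2 ⟨z, hz⟩).trans_le h1
    exact Nat.one_le_pow _ _ this
  obtain ⟨j, hj, hmin⟩ : ∃ j, 16 * G.rho j ≤ r ∧ ∀ i < j, r < 16 * G.rho i :=
    ⟨Nat.find hex, Nat.find_spec hex, fun i hi => not_le.1 (Nat.find_min hex hi)⟩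
  rcases j with _ | j
  · refine ⟨{x}, by simpa using hlam, by simpa using mem_X hx, ?_⟩
    rintro y ⟨b, m, hy⟩ -
    refine ⟨x, Finset.mem_singleton_self x, ?_⟩
    obtain ⟨t, ht, hxt⟩ := hx.split 0
    obtain ⟨u, hu, hyu⟩ := hy.split 0
    rw [sum_range_zero, zero_add] at hxt hyu
    have h5 := G.rho_pos 0
    rw [dist_eq_norm, hxt, hyu]
    calc ‖u - t‖ ≤ ‖u‖ + ‖t‖ := norm_sub_le _ _
      _ < r / 2 := by linarith
  · have hej := G.e_pos j
    obtain ⟨T, hT1, hT2, hT3⟩ := doubling_iter (G.dbl j) 2 (a j) (hx.mem j) (2 * r / G.e j)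
      (by positivity)
    set z : Y → Y := fun c => ∑ i ∈ range j, G.e i • a i + G.e j • c with hz
    refine ⟨T.image z, card_image_le.trans hT1, ?_, ?_⟩
    · intro w hw
      obtain ⟨c, hc, rfl⟩ := Finset.mem_image.1 (mem_coe.1 hw)
      refine ⟨fun i => if i < j then a i else if i = j then c else 0, j + 1, fun i => ?_,
        fun i hi => ?_, ?_⟩
      · by_cases h1 : i < j
        · simp only [h1, if_true]; exact hx.mem i
        · by_cases h2 : i = j
          · subst h2; simp only [lt_irrefl, if_false, if_true]; exact hT2 hc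
          · simp only [h1, h2, if_false]; exact G.zero i
      · have h1 : ¬ i < j := by omega
        have h2 : i ≠ j := by omega
        simp only [h1, h2, if_false]
      · rw [sum_range_succ]
        simp only [lt_irrefl, if_false, if_true, hz]
        congr 1
        exact sum_congr rfl fun i hi => by rw [if_pos (Finset.mem_range.1 hi)]
    · rintro y ⟨b, m, hy⟩ hyx
      rw [dist_eq_norm] at hyx
      have hlt : ‖y - x‖ < 16 * G.rho j := hyx.trans_lt (hmin j (Nat.lt_succ_self j))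
      have hd := digits_eq hx hy hlt
      have h1 := digit_le hx hy hd
      have h2 : dist (b j) (a j) ≤ 2 * r / G.e j := by
        rw [dist_eq_norm, le_div_iff₀ hej, mul_comm]
        linarith
      obtain ⟨c, hc, hcd⟩ := hT3 (b j) (hy.mem j) h2
      refine ⟨z c, Finset.mem_image_of_mem z hc, ?_⟩
      obtain ⟨u, hu, hyu⟩ := hy.split (j + 1)
      rw [sum_range_succ] at hyu
      have h3 : ∑ i ∈ range j, G.e i • a i = ∑ i ∈ range j, G.e i • b i :=
        sum_congr rfl fun i hi => by rw [hd i (Finset.mem_range.1 hi)]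
      have h4 : y - z c = G.e j • (b j - c) + u := by
        rw [hyu, hz]
        simp only
        rw [h3, smul_sub]
        abel
      rw [dist_eq_norm, h4]
      have h5 : G.e j * ‖b j - c‖ < r / 4 := by
        rw [dist_eq_norm] at hcd
        have h6 := mul_lt_mul_of_pos_left hcd hej
        refine h6.trans_le (le_of_eq ?_)
        field_simp
        norm_num
      calc ‖G.e j • (b j - c) + u‖ ≤ ‖G.e j • (b j - c)‖ + ‖u‖ := norm_add_le _ _
        _ = G.e j * ‖b j - c‖ + ‖u‖ := by rw [norm_smul, Real.norm_of_nonneg hej.le]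
        _ < r / 2 := by linarith

end Dig

end Vale.Agent.P208.H124
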